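import Vale.Agent.P112.ST.Outer
import Mathlib.Algebra.Order.Chebyshev

set_option linter.all false

/-!
# P112, block F2 (i): localisation of the uniform bound to functions supported in a small ball
-/

attribute [local instance] Vale.Agent.P112.SC.i0 Vale.Agent.P112.SC.i1 Vale.Agent.P112.SC.i2
  Vale.Agent.P112.SC.i3 Vale.Agent.P112.SC.i4 Vale.Agent.P112.SC.i5 Vale.Agent.P112.SC.i6
  Vale.Agent.P112.SC.i7

namespace Vale.Agent.P112

open MeasureTheory Filter Topology Set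
open scoped ENNReal NNReal

/-- Uniform bound for functions supported in a ball of radius `2 * 2 ^ (-m)`. -/
def UnifLoc (m : ℕ) (C : ℝ) : Prop :=
  ∀ v : Plane → Plane, LipschitzWith 1 v → (∀ x, ‖v x‖ = 1) → ∀ l0 n : ℕ, m ≤ l0 →
    ∀ (c : Plane) (F : Plane → ℝ), CC F → (∀ x, F x ≠ 0 → ‖x - c‖ ≤ 2 * sc m) →
      sqn (∑ l ∈ Finset.range n, Tp v (sc (l0 + l)) F) ≤ ENNReal.ofReal (C ^ 2) * sqn F

namespace Loc

/-- the one-dimensional tent -/
noncomputable def tent (t : ℝ) : ℝ := max 0 (1 - |t|)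

lemma continuous_tent : Continuous tent := by unfold tent; fun_prop

lemma tent_nonneg (t : ℝ) : 0 ≤ tent t := le_max_left _ _

lemma tent_le_one (t : ℝ) : tent t ≤ 1 := by
  unfold tent
  exact max_le zero_le_one (by linarith [abs_nonneg t])

lemma tent_zero {t : ℝ} (h : 1 ≤ |t|) : tent t = 0 := by
  unfold tent
  exact max_eq_left (by linarith)

lemma tent_ne {t : ℝ} (h : tent t ≠ 0) : |t| < 1 := by
  by_contra h1
  exact h (tent_zero (not_lt.mp h1))

lemma sum_tent {t : ℝ} {N : ℤ} (ht : |t| ≤ N) :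
    ∑ k ∈ Finset.Icc (-(N + 1)) (N + 1), tent (t - k) = 1 := by
  obtain ⟨h1, h2⟩ := abs_le.mp ht
  have f1 := Int.floor_le t
  have f2 := Int.lt_floor_add_one t
  have g1 : -(N + 1) ≤ ⌊t⌋ := by
    have : ((-(N + 1) : ℤ) : ℝ) ≤ t := by push_cast; linarith
    exact Int.le_floor.mpr this
  have g2 : ⌊t⌋ + 1 ≤ N + 1 := by
    have : (⌊t⌋ : ℝ) ≤ N := f1.trans h2
    have := (Int.cast_le (R := ℝ)).mp this
    omega
  have hsub : ({⌊t⌋, ⌊t⌋ + 1} : Finset ℤ) ⊆ Finset.Icc (-(N + 1)) (N + 1) := by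
    intro k hk
    simp only [Finset.mem_insert, Finset.mem_singleton] at hk
    rw [Finset.mem_Icc]
    omega
  rw [← Finset.sum_subset hsub]
  · rw [Finset.sum_pair (by omega)]
    unfold tent
    push_cast
    rw [abs_of_nonneg (by linarith), abs_of_nonpos (by linarith : t - (⌊t⌋ + 1) ≤ 0),
      max_eq_right (by linarith), max_eq_right (by linarith)]
    ring
  · intro k _ hk
    simp only [Finset.mem_insert, Finset.mem_singleton, not_or] at hk
    apply tent_zero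
    rcases lt_or_gt_of_ne hk.1 with h | h
    · have : (k : ℝ) + 1 ≤ ⌊t⌋ := by exact_mod_cast h
      rw [abs_of_nonneg (by linarith)]
      linarith
    · have : (⌊t⌋ : ℝ) + 2 ≤ k := by
        have : ⌊t⌋ + 2 ≤ k := by omega
        exact_mod_cast this
      rw [abs_of_nonpos (by linarith)]
      linarith

/-- the index set -/
noncomputable def ix (N : ℤ) : Finset (ℤ × ℤ) :=
  Finset.Icc (-(N + 1)) (N + 1) ×ˢ Finset.Icc (-(N + 1)) (N + 1)

/-- the partition of unity at scale `d` -/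
noncomputable def pu (d : ℝ) (k : ℤ × ℤ) (x : Plane) : ℝ :=
  tent (x 0 / d - k.1) * tent (x 1 / d - k.2)

lemma continuous_pu (d : ℝ) (k : ℤ × ℤ) : Continuous (pu d k) := by
  unfold pu
  have h0 : Continuous fun x : Plane => x 0 := by fun_prop
  have h1 : Continuous fun x : Plane => x 1 := by fun_prop
  exact (continuous_tent.comp ((h0.div_const d).sub continuous_const)).mul
    (continuous_tent.comp ((h1.div_const d).sub continuous_const))

lemma pu_nonneg (d : ℝ) (k : ℤ × ℤ) (x : Plane) : 0 ≤ pu d k x :=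
  mul_nonneg (tent_nonneg _) (tent_nonneg _)

lemma pu_le_one (d : ℝ) (k : ℤ × ℤ) (x : Plane) : pu d k x ≤ 1 :=
  mul_le_one₀ (tent_le_one _) (tent_nonneg _) (tent_le_one _)

lemma sum_pu {d : ℝ} (hd : 0 < d) {N : ℤ} {x : Plane} (h0 : |x 0| ≤ N * d)
    (h1 : |x 1| ≤ N * d) : ∑ k ∈ ix N, pu d k x = 1 := by
  unfold ix pu
  rw [Finset.sum_product]
  simp only
  have e0 : |x 0 / d| ≤ N := by rw [abs_div, abs_of_pos hd, div_le_iff₀ hd]; exact h0
  have e1 : |x 1 / d| ≤ N := by rw [abs_div, abs_of_pos hd, div_le_iff₀ hd]; exact h1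
  simp_rw [← Finset.mul_sum]
  rw [sum_tent e1]
  simp only [mul_one]
  exact sum_tent e0

lemma sum_pu_le {d : ℝ} (hd : 0 < d) (N : ℤ) (x : Plane) : ∑ k ∈ ix N, pu d k x ≤ 1 := by
  have hN : ∃ M : ℤ, N ≤ M ∧ |x 0| ≤ M * d ∧ |x 1| ≤ M * d := by
    refine ⟨max N (⌈max (|x 0| / d) (|x 1| / d)⌉), le_max_left _ _, ?_, ?_⟩
    · rw [← div_le_iff₀ hd]
      calc |x 0| / d ≤ max (|x 0| / d) (|x 1| / d) := le_max_left _ _
        _ ≤ (⌈max (|x 0| / d) (|x 1| / d)⌉ : ℝ) := Int.le_ceil _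
        _ ≤ _ := by exact_mod_cast le_max_right _ _
    · rw [← div_le_iff₀ hd]
      calc |x 1| / d ≤ max (|x 0| / d) (|x 1| / d) := le_max_right _ _
        _ ≤ (⌈max (|x 0| / d) (|x 1| / d)⌉ : ℝ) := Int.le_ceil _
        _ ≤ _ := by exact_mod_cast le_max_right _ _
  obtain ⟨M, hNM, h0, h1⟩ := hN
  rw [← sum_pu hd h0 h1]
  apply Finset.sum_le_sum_of_subset_of_nonneg
  · unfold ix
    apply Finset.product_subset_product <;>
    · intro k hk
      rw [Finset.mem_Icc] at hk ⊢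
      omega
  · intro k _ _
    exact pu_nonneg _ _ _

lemma pu_supp {d : ℝ} (hd : 0 < d) {k : ℤ × ℤ} {x : Plane} (h : pu d k x ≠ 0) :
    |x 0 - d * k.1| < d ∧ |x 1 - d * k.2| < d := by
  have h1 := tent_ne (left_ne_zero_of_mul h)
  have h2 := tent_ne (right_ne_zero_of_mul h)
  constructor
  · have e : x 0 - d * k.1 = (x 0 / d - k.1) * d := by field_simp
    rw [e, abs_mul, abs_of_pos hd]
    nlinarith
  · have e : x 1 - d * k.2 = (x 1 / d - k.2) * d := by field_simp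
    rw [e, abs_mul, abs_of_pos hd]
    nlinarith

lemma cc_pu_mul {d : ℝ} {k : ℤ × ℤ} {F : Plane → ℝ} (hF : CC F) :
    CC (fun x => pu d k x * F x) :=
  ⟨(continuous_pu d k).mul hF.1, hF.2.mul_left⟩

/-- the finite sum of pieces -/
noncomputable def TT (v : Plane → Plane) (l0 n : ℕ) (F : Plane → ℝ) : Plane → ℝ :=
  ∑ l ∈ Finset.range n, Tp v (sc (l0 + l)) F

lemma TT_add {v : Plane → Plane} (hvl : LipschitzWith 1 v) (l0 n : ℕ) {F G : Plane → ℝ}
    (hF : CC F) (hG : CC G) : TT v l0 n (F + G) = TT v l0 n F + TT v l0 n G := by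
  unfold TT
  rw [← Finset.sum_add_distrib]
  apply Finset.sum_congr rfl
  intro l _
  exact Tp_add hvl (sc_pos _) hF hG

lemma TT_zero {v : Plane → Plane} (l0 n : ℕ) : TT v l0 n (0 : Plane → ℝ) = 0 := by
  unfold TT
  apply Finset.sum_eq_zero
  intro l _
  ext x
  unfold Tp
  simp

lemma TT_sum {v : Plane → Plane} (hvl : LipschitzWith 1 v) (l0 n : ℕ) {ι : Type*}
    (s : Finset ι) (F : ι → Plane → ℝ) (hF : ∀ i, CC (F i)) :
    CC (∑ i ∈ s, F i) ∧ TT v l0 n (∑ i ∈ s, F i) = ∑ i ∈ s, TT v l0 n (F i) := by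
  classical
  induction s using Finset.induction_on with
  | empty => simpa using ⟨CC.zero, TT_zero l0 n⟩
  | insert a s ha ih =>
    rw [Finset.sum_insert ha, Finset.sum_insert ha, TT_add hvl l0 n (hF a) ih.1, ih.2]
    exact ⟨(hF a).add ih.1, rfl⟩

lemma TT_eq_zero {v : Plane → Plane} (hvu : ∀ x, ‖v x‖ = 1) {l0 n m : ℕ} (hm : m ≤ l0)
    {F : Plane → ℝ} {x : Plane} (h : ∀ y, ‖x - y‖ ≤ sc m → F y = 0) : TT v l0 n F x = 0 := by
  unfold TT
  rw [Finset.sum_apply]
  apply Finset.sum_eq_zero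
  intro l _
  unfold Tp
  apply integral_eq_zero_of_ae
  filter_upwards with t
  by_cases ht : eta (sc (l0 + l)) t = 0
  · simp [ht]
  · have h1 := (eta_supp (sc_pos _) ht).2
    have h2 : sc (l0 + l) ≤ sc m := sc_mono (by omega)
    rw [h (x - t • v x) ?_, mul_zero]
    · rfl
    · rw [sub_sub_cancel, norm_smul, hvu, mul_one, Real.norm_eq_abs]
      linarith

/-- the indices which matter at a point -/
noncomputable def near (d : ℝ) (x : Plane) : Finset (ℤ × ℤ) :=
  Finset.Icc (⌊x 0 / d⌋ - 2) (⌊x 0 / d⌋ + 3) ×ˢ Finset.Icc (⌊x 1 / d⌋ - 2) (⌊x 1 / d⌋ + 3)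

lemma card_near (d : ℝ) (x : Plane) : (near d x).card = 36 := by
  unfold near
  rw [Finset.card_product, Int.card_Icc, Int.card_Icc]
  have e1 : (⌊x 0 / d⌋ + 3 + 1 - (⌊x 0 / d⌋ - 2)).toNat = 6 := by omega
  have e2 : (⌊x 1 / d⌋ + 3 + 1 - (⌊x 1 / d⌋ - 2)).toNat = 6 := by omega
  rw [e1, e2]

lemma mem_near_aux {d : ℝ} (hd : 0 < d) {a : ℝ} {k : ℤ} (h : |a - d * k| ≤ 2 * d) :
    k ∈ Finset.Icc (⌊a / d⌋ - 2) (⌊a / d⌋ + 3) := by
  have f1 := Int.floor_le (a / d)
  have f2 := Int.lt_floor_add_one (a / d)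
  have e : a - d * k = (a / d - k) * d := by field_simp
  rw [e, abs_mul, abs_of_pos hd] at h
  have h1 : |a / d - k| ≤ 2 := le_of_mul_le_mul_right h hd
  obtain ⟨h2, h3⟩ := abs_le.mp h1
  rw [Finset.mem_Icc]
  constructor
  · have : ((⌊a / d⌋ - 2 : ℤ) : ℝ) ≤ k := by push_cast; linarith
    exact_mod_cast this
  · have : (k : ℝ) < ((⌊a / d⌋ + 3 : ℤ) : ℝ) + 1 := by push_cast; linarith
    have : k < ⌊a / d⌋ + 3 + 1 := by exact_mod_cast this
    omega

lemma TT_pu_eq_zero {v : Plane → Plane} (hvu : ∀ x, ‖v x‖ = 1) {l0 n m : ℕ} (hm : m ≤ l0)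
    {F : Plane → ℝ} {x : Plane} {k : ℤ × ℤ} (hk : k ∉ near (sc m) x) :
    TT v l0 n (fun y => pu (sc m) k y * F y) x = 0 := by
  apply TT_eq_zero hvu hm
  intro y hy
  by_contra h
  have h1 := pu_supp (sc_pos m) (left_ne_zero_of_mul h)
  apply hk
  unfold near
  rw [Finset.mem_product]
  have c0 : |x 0 - y 0| ≤ sc m := (abs_coord_le (x - y) 0).trans hy
  have c1 : |x 1 - y 1| ≤ sc m := (abs_coord_le (x - y) 1).trans hy
  constructor
  · apply mem_near_aux (sc_pos m)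
    have e : x 0 - sc m * k.1 = (x 0 - y 0) + (y 0 - sc m * k.1) := by ring
    rw [e]
    refine (abs_add_le _ _).trans ?_
    linarith [h1.1]
  · apply mem_near_aux (sc_pos m)
    have e : x 1 - sc m * k.2 = (x 1 - y 1) + (y 1 - sc m * k.2) := by ring
    rw [e]
    refine (abs_add_le _ _).trans ?_
    linarith [h1.2]

lemma enorm_sq (a : ℝ) : ‖a‖ₑ ^ 2 = ENNReal.ofReal (a ^ 2) := final_enorm_sq a

end Loc

open Loc in
/-- localisation -/
theorem unifFrom_of_loc {m : ℕ} {C : ℝ} (h : UnifLoc m C) : UnifFrom m (6 * C) := by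
  intro v hvl hvu l0 n hm F hF
  have hd := sc_pos m
  -- the index set
  obtain ⟨ρ, hρ⟩ := hF.2.isCompact.isBounded.subset_closedBall (0 : Plane)
  set N : ℤ := ⌈ρ / sc m⌉ with hN
  have hsupp : ∀ x, F x ≠ 0 → |x 0| ≤ N * sc m ∧ |x 1| ≤ N * sc m := by
    intro x hx
    have h1 : ‖x‖ ≤ ρ := by
      have := hρ (subset_tsupport F hx)
      rwa [Metric.mem_closedBall, dist_zero_right] at this
    have h2 : ρ ≤ N * sc m := by
      rw [← div_le_iff₀ hd]; exact Int.le_ceil _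
    exact ⟨(abs_coord_le x 0).trans (h1.trans h2), (abs_coord_le x 1).trans (h1.trans h2)⟩
  set G : ℤ × ℤ → Plane → ℝ := fun k x => pu (sc m) k x * F x with hG
  have hGcc : ∀ k, CC (G k) := fun k => cc_pu_mul hF
  have hFG : F = ∑ k ∈ ix N, G k := by
    ext x
    rw [Finset.sum_apply]
    simp only [hG]
    rw [← Finset.sum_mul]
    by_cases hx : F x = 0
    · rw [hx, mul_zero]
    · rw [sum_pu hd (hsupp x hx).1 (hsupp x hx).2, one_mul]
  have hT : TT v l0 n F = ∑ k ∈ ix N, TT v l0 n (G k) := by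
    conv_lhs => rw [hFG]
    exact (TT_sum hvl l0 n (ix N) G hGcc).2
  have hmeas : ∀ k, Measurable (TT v l0 n (G k)) := fun k =>
    (cc_sum_Tp hvl hvu (hGcc k) l0 _).1.measurable
  -- pointwise bound
  have hpt : ∀ x, ‖TT v l0 n F x‖ₑ ^ 2 ≤ 36 * ∑ k ∈ ix N, ‖TT v l0 n (G k) x‖ₑ ^ 2 := by
    intro x
    have e1 : TT v l0 n F x = ∑ k ∈ ix N ∩ near (sc m) x, TT v l0 n (G k) x := by
      rw [hT, Finset.sum_apply]
      symm
      apply Finset.sum_subset Finset.inter_subset_left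
      intro k hk1 hk2
      apply TT_pu_eq_zero hvu hm
      intro hk3
      exact hk2 (Finset.mem_inter.mpr ⟨hk1, hk3⟩)
    have e2 : (TT v l0 n F x) ^ 2 ≤ 36 * ∑ k ∈ ix N, (TT v l0 n (G k) x) ^ 2 := by
      rw [e1]
      refine (_root_.sq_sum_le_card_mul_sum_sq).trans ?_
      have hc : ((ix N ∩ near (sc m) x).card : ℝ) ≤ 36 := by
        have := Finset.card_le_card (Finset.inter_subset_right (s₁ := ix N) (s₂ := near (sc m) x))
        rw [card_near] at this
        exact_mod_cast this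
      have hs : ∑ k ∈ ix N ∩ near (sc m) x, (TT v l0 n (G k) x) ^ 2 ≤
          ∑ k ∈ ix N, (TT v l0 n (G k) x) ^ 2 :=
        Finset.sum_le_sum_of_subset_of_nonneg Finset.inter_subset_left
          (fun _ _ _ => sq_nonneg _)
      exact mul_le_mul hc hs (Finset.sum_nonneg fun _ _ => sq_nonneg _) (by norm_num)
    rw [Loc.enorm_sq]
    calc ENNReal.ofReal ((TT v l0 n F x) ^ 2)
        ≤ ENNReal.ofReal (36 * ∑ k ∈ ix N, (TT v l0 n (G k) x) ^ 2) := ENNReal.ofReal_le_ofReal e2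
      _ = 36 * ∑ k ∈ ix N, ‖TT v l0 n (G k) x‖ₑ ^ 2 := by
          rw [ENNReal.ofReal_mul (by norm_num),
            ENNReal.ofReal_sum_of_nonneg (fun _ _ => sq_nonneg _)]
          simp_rw [Loc.enorm_sq]
          norm_num
  -- each piece
  have hpiece : ∀ k, sqn (TT v l0 n (G k)) ≤ ENNReal.ofReal (C ^ 2) * sqn (G k) := by
    intro k
    refine h v hvl hvu l0 n hm !₂[sc m * k.1, sc m * k.2] (G k) (hGcc k) ?_
    intro x hx
    obtain ⟨h1, h2⟩ := pu_supp hd (left_ne_zero_of_mul hx)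
    rw [EuclideanSpace.norm_eq, Fin.sum_univ_two]
    apply Real.sqrt_le_iff.mpr
    refine ⟨by positivity, ?_⟩
    simp only [Real.norm_eq_abs, sq_abs, PiLp.sub_apply]
    simp only [Matrix.cons_val_zero, Matrix.cons_val_one]
    rw [← sq_abs (x 0 - _), ← sq_abs (x 1 - _)]
    nlinarith [abs_nonneg (x 0 - sc m * k.1), abs_nonneg (x 1 - sc m * k.2)]
  have hsumG : ∑ k ∈ ix N, sqn (G k) ≤ sqn F := by
    unfold sqn
    rw [← lintegral_finset_sum]
    · apply lintegral_mono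
      intro x
      simp only [hG]
      simp_rw [enorm_mul, mul_pow]
      rw [← Finset.sum_mul]
      calc (∑ k ∈ ix N, ‖pu (sc m) k x‖ₑ ^ 2) * ‖F x‖ₑ ^ 2
          ≤ 1 * ‖F x‖ₑ ^ 2 := by
            gcongr
            simp_rw [Loc.enorm_sq]
            rw [← ENNReal.ofReal_sum_of_nonneg (fun _ _ => sq_nonneg _)]
            apply ENNReal.ofReal_le_one.mpr
            refine le_trans (Finset.sum_le_sum fun k _ => ?_) (sum_pu_le hd N x)
            have a1 := pu_nonneg (sc m) k x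
            have a2 := pu_le_one (sc m) k x
            nlinarith
        _ = ‖F x‖ₑ ^ 2 := one_mul _
    · intro k _
      exact ((hGcc k).1.measurable.enorm).pow_const 2
  calc sqn (∑ l ∈ Finset.range n, Tp v (sc (l0 + l)) F)
      = ∫⁻ x, ‖TT v l0 n F x‖ₑ ^ 2 := rfl
    _ ≤ ∫⁻ x, 36 * ∑ k ∈ ix N, ‖TT v l0 n (G k) x‖ₑ ^ 2 := lintegral_mono hpt
    _ = 36 * ∑ k ∈ ix N, sqn (TT v l0 n (G k)) := by
        rw [lintegral_const_mul' _ _ (by norm_num), lintegral_finset_sum]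
        · rfl
        · intro k _
          exact ((hmeas k).enorm).pow_const 2
    _ ≤ 36 * ∑ k ∈ ix N, ENNReal.ofReal (C ^ 2) * sqn (G k) := by
        gcongr with k hk
        exact hpiece k
    _ = 36 * ENNReal.ofReal (C ^ 2) * ∑ k ∈ ix N, sqn (G k) := by
        rw [← Finset.mul_sum, mul_assoc]
    _ ≤ 36 * ENNReal.ofReal (C ^ 2) * sqn F := by gcongr
    _ = ENNReal.ofReal ((6 * C) ^ 2) * sqn F := by
        congr 1
        rw [mul_pow, ENNReal.ofReal_mul (by norm_num)]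
        norm_num

/-! ## Freezing the field outside a ball -/

/-- Uniform bound for unit fields with small variation of the direction. -/
def UnitGraph (m : ℕ) (C : ℝ) : Prop :=
  ∀ e : Plane, ‖e‖ = 1 → ∀ w : Plane → Plane, LipschitzWith 1 w → (∀ x, ‖w x‖ = 1) →
    (∀ x, 9 / 10 ≤ inner ℝ (w x) e) → ∀ l0 n : ℕ, m ≤ l0 → ∀ F : Plane → ℝ, CC F →
      sqn (∑ l ∈ Finset.range n, Tp w (sc (l0 + l)) F) ≤ ENNReal.ofReal (C ^ 2) * sqn F

namespace Loc

/-- nonexpansive retraction onto the square of half width `K` around `c` -/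
noncomputable def sqr (c : Plane) (K : ℝ) (x : Plane) : Plane :=
  !₂[c 0 + max (-K) (min (x 0 - c 0) K), c 1 + max (-K) (min (x 1 - c 1) K)]

lemma clip_sub_le (K a b : ℝ) : |max (-K) (min a K) - max (-K) (min b K)| ≤ |a - b| := by
  have h1 := abs_max_sub_max_le_abs (min a K) (min b K) (-K)
  have h2 := abs_min_sub_min_le_max a K b K
  rw [sub_self, abs_zero, max_eq_left (abs_nonneg _)] at h2
  rw [max_comm (-K), max_comm (-K)]
  exact h1.trans h2

lemma sqr_lip (c : Plane) (K : ℝ) : LipschitzWith 1 (sqr c K) := by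
  apply LipschitzWith.of_dist_le_mul
  intro x y
  rw [NNReal.coe_one, one_mul, dist_eq_norm, dist_eq_norm, EuclideanSpace.norm_eq,
    EuclideanSpace.norm_eq, Fin.sum_univ_two, Fin.sum_univ_two]
  apply Real.sqrt_le_sqrt
  simp only [sqr, Real.norm_eq_abs, sq_abs, PiLp.sub_apply, Matrix.cons_val_zero,
    Matrix.cons_val_one]
  have a0 := clip_sub_le K (x 0 - c 0) (y 0 - c 0)
  have a1 := clip_sub_le K (x 1 - c 1) (y 1 - c 1)
  have b0 := sq_le_sq' (by linarith [abs_nonneg (max (-K) (min (x 0 - c 0) K) - max (-K) (min (y 0 - c 0) K)), abs_nonneg ((x 0 - c 0) - (y 0 - c 0))]) a0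
  have b1 := sq_le_sq' (by linarith [abs_nonneg (max (-K) (min (x 1 - c 1) K) - max (-K) (min (y 1 - c 1) K)), abs_nonneg ((x 1 - c 1) - (y 1 - c 1))]) a1
  rw [sq_abs, sq_abs] at b0 b1
  have e0 : c 0 + max (-K) (min (x 0 - c 0) K) - (c 0 + max (-K) (min (y 0 - c 0) K)) =
      max (-K) (min (x 0 - c 0) K) - max (-K) (min (y 0 - c 0) K) := by ring
  have e1 : c 1 + max (-K) (min (x 1 - c 1) K) - (c 1 + max (-K) (min (y 1 - c 1) K)) =
      max (-K) (min (x 1 - c 1) K) - max (-K) (min (y 1 - c 1) K) := by ring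
  rw [e0, e1]
  have f0 : x 0 - c 0 - (y 0 - c 0) = x 0 - y 0 := by ring
  have f1 : x 1 - c 1 - (y 1 - c 1) = x 1 - y 1 := by ring
  rw [f0] at b0
  rw [f1] at b1
  linarith

lemma clip_abs_le {K : ℝ} (hK : 0 ≤ K) (a : ℝ) : |max (-K) (min a K)| ≤ K := by
  rw [abs_le]
  exact ⟨le_max_left _ _, max_le (by linarith) (min_le_right _ _)⟩

lemma sqr_near (c : Plane) {K : ℝ} (hK : 0 ≤ K) (x : Plane) : ‖sqr c K x - c‖ ≤ 2 * K := by
  rw [EuclideanSpace.norm_eq, Fin.sum_univ_two]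
  apply Real.sqrt_le_iff.mpr
  refine ⟨by positivity, ?_⟩
  simp only [sqr, Real.norm_eq_abs, sq_abs, PiLp.sub_apply, Matrix.cons_val_zero,
    Matrix.cons_val_one, add_sub_cancel_left]
  have a0 := clip_abs_le hK (x 0 - c 0)
  have a1 := clip_abs_le hK (x 1 - c 1)
  rw [← sq_abs (max (-K) (min (x 0 - c 0) K)), ← sq_abs (max (-K) (min (x 1 - c 1) K))]
  nlinarith [abs_nonneg (max (-K) (min (x 0 - c 0) K)), abs_nonneg (max (-K) (min (x 1 - c 1) K))]

lemma sqr_eq (c : Plane) {K : ℝ} {x : Plane} (hx : ‖x - c‖ ≤ K) : sqr c K x = x := by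
  have h0 : |x 0 - c 0| ≤ K := (abs_coord_le (x - c) 0).trans hx
  have h1 : |x 1 - c 1| ≤ K := (abs_coord_le (x - c) 1).trans hx
  obtain ⟨a0, b0⟩ := abs_le.mp h0
  obtain ⟨a1, b1⟩ := abs_le.mp h1
  ext i
  fin_cases i
  · simp only [sqr]
    change c 0 + max (-K) (min (x 0 - c 0) K) = x 0
    rw [min_eq_left b0, max_eq_right a0]; ring
  · simp only [sqr]
    change c 1 + max (-K) (min (x 1 - c 1) K) = x 1
    rw [min_eq_left b1, max_eq_right a1]; ring

end Loc

open Loc in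
/-- **Block F2, localisation.** -/
theorem unifLoc_of_unitGraph {m : ℕ} (hm6 : 6 ≤ m) {C : ℝ} (h : UnitGraph m C) :
    UnifLoc m C := by
  intro v hvl hvu l0 n hm c F hF hsupp
  have hd := sc_pos m
  have hd1 : sc m ≤ 1 / 64 := sc_le hm6
  set w : Plane → Plane := fun x => v (sqr c (4 * sc m) x) with hw
  have hwl : LipschitzWith 1 w := by
    have := hvl.comp (sqr_lip c (4 * sc m))
    rwa [one_mul] at this
  have hwu : ∀ x, ‖w x‖ = 1 := fun x => hvu _
  have hwi : ∀ x, 9 / 10 ≤ inner ℝ (w x) (v c) := by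
    intro x
    have h1 : ‖w x - v c‖ ≤ 8 * sc m := by
      have h2 := hvl.dist_le_mul (sqr c (4 * sc m) x) c
      rw [dist_eq_norm, dist_eq_norm, NNReal.coe_one, one_mul] at h2
      have h3 := sqr_near c (K := 4 * sc m) (by positivity) x
      exact h2.trans (h3.trans (by linarith))
    have h4 := norm_sub_sq_real (w x) (v c)
    rw [hwu, hvu] at h4
    have h5 : ‖w x - v c‖ ^ 2 ≤ (8 * sc m) ^ 2 := by gcongr
    have h6 : (8 * sc m) ^ 2 ≤ 1 / 64 := by nlinarith
    linarith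
  have hmain := h (v c) (hvu c) w hwl hwu hwi l0 n hm F hF
  have heq : TT v l0 n F = TT w l0 n F := by
    ext x
    by_cases hx : ‖x - c‖ ≤ 4 * sc m
    · have hwx : w x = v x := by rw [hw]; simp only; rw [sqr_eq c hx]
      unfold TT
      rw [Finset.sum_apply, Finset.sum_apply]
      apply Finset.sum_congr rfl
      intro l _
      unfold Tp
      rw [hwx]
    · rw [not_le] at hx
      have hz : ∀ y, ‖x - y‖ ≤ sc m → F y = 0 := by
        intro y hy
        by_contra hne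
        have h1 := hsupp y hne
        have h2 : ‖x - c‖ ≤ ‖x - y‖ + ‖y - c‖ := by
          have e : x - c = (x - y) + (y - c) := by abel
          rw [e]; exact norm_add_le _ _
        linarith
      rw [TT_eq_zero hvu hm hz, TT_eq_zero hwu hm hz]
  change sqn (TT v l0 n F) ≤ _
  rw [heq]
  exact hmain

lemma UnitGraph.mono {m m' : ℕ} (hm : m ≤ m') {C : ℝ} (h : UnitGraph m C) : UnitGraph m' C :=
  fun e he w hwl hwu hwi l0 n hl0 F hF => h e he w hwl hwu hwi l0 n (hm.trans hl0) F hF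

/-- **Block S4.** Stein's inequality from the uniform bound for unit fields whose direction varies
little. -/
theorem stein_of_unitGraph {m : ℕ} {C₁ : ℝ} (h1 : UnitGraph m C₁) : ∃ C : ℝ, 0 < C ∧
    ∀ v : Plane → Plane, (∀ x, ‖v x‖ = 1) → LipschitzWith 1 v →
      ∀ a : ℝ, 0 < a → a ≤ 1 → StrongType v a C ∧ WeakType v a C :=
  stein_of_unif (unifFrom_of_loc (unifLoc_of_unitGraph (le_max_right m 6)
    (h1.mono (le_max_left m 6))))

end Vale.Agent.P112
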