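import Vale.Agent.P112.Bdl.B5

set_option linter.all false

/-!
# P112, block A0: from the uniform bound of finite sums of smooth dyadic pieces to Stein's
inequality (weak and strong form, every scale `a ∈ (0,1]`)
-/

attribute [local instance] Vale.Agent.P112.SC.i0 Vale.Agent.P112.SC.i1 Vale.Agent.P112.SC.i2
  Vale.Agent.P112.SC.i3 Vale.Agent.P112.SC.i4 Vale.Agent.P112.SC.i5 Vale.Agent.P112.SC.i6
  Vale.Agent.P112.SC.i7

namespace Vale.Agent.P112

open MeasureTheory Filter Topology Set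
open scoped ENNReal NNReal

/-- Uniform `L²` bound, with constant `C`, for the finite sums of smooth dyadic pieces (of length
at most `2 ^ (-m)`) of the Hilbert transform along unit vector fields with Lipschitz constant at
most one. -/
def UnifFrom (m : ℕ) (C : ℝ) : Prop :=
  ∀ v : Plane → Plane, LipschitzWith 1 v → (∀ x, ‖v x‖ = 1) → ∀ l0 n : ℕ, m ≤ l0 →
    ∀ F : Plane → ℝ, CC F →
      sqn (∑ l ∈ Finset.range n, Tp v (sc (l0 + l)) F) ≤ ENNReal.ofReal (C ^ 2) * sqn F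

/-- The strong form, from the uniform bound. -/
theorem strong_of_unif {C₁ : ℝ} (h1 : UnifFrom 6 C₁) : ∃ C : ℝ, 0 < C ∧
    ∀ (v : Plane → Plane), LipschitzWith 1 v → (∀ x, ‖v x‖ = 1) →
    ∀ a : ℝ, 0 < a → a ≤ 1 → ∀ f : SchwartzMap Plane ℂ,
      ∫⁻ x, ‖hilbert v a f x‖ₑ ^ 2 ≤ ENNReal.ofReal (C * ∫ x, ‖f x‖ ^ 2) := by
  refine tail_bound.elim fun C₂ h2 => ?_
  have hC₂ := h2.1
  refine ⟨2 * (C₁ ^ 2 + C₂ ^ 2), by positivity, ?_⟩
  intro v hvl hvu a ha ha1 f
  refine (h2.2 a ha ha1).elim fun l0 h3 => ?_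
  refine (schwartz_lipschitz f).elim fun Kf hf => ?_
  have hre := final_part hvl hvu h3.1 (fun n => h1 v hvl hvu l0 n h3.1) (h3.2 v hvl hvu)
    (g := fun y => (f y).re) (G := fun x => (pvInt v a f x).re)
    (Complex.continuous_re.comp hf.continuous) (fun x => tendsto_re hf hvu x ha l0)
  have him := final_part hvl hvu h3.1 (fun n => h1 v hvl hvu l0 n h3.1) (h3.2 v hvl hvu)
    (g := fun y => (f y).im) (G := fun x => (pvInt v a f x).im)
    (Complex.continuous_im.comp hf.continuous) (fun x => tendsto_im hf hvu x ha l0)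
  have hmre : Measurable fun y => (f y).re :=
    (Complex.continuous_re.comp hf.continuous).measurable
  calc ∫⁻ x, ‖hilbert v a f x‖ₑ ^ 2
      = ∫⁻ x, (‖(pvInt v a f x).re‖ₑ ^ 2 + ‖(pvInt v a f x).im‖ₑ ^ 2) := by
        refine lintegral_congr fun x => ?_
        rw [hilbert_eq hf v hvu x a]
        exact final_normsq _
    _ = sqn (fun x => (pvInt v a f x).re) + sqn (fun x => (pvInt v a f x).im) := by
        exact lintegral_add_left (hre.1.enorm.pow_const 2) _
    _ ≤ ENNReal.ofReal (2 * (C₁ ^ 2 + C₂ ^ 2)) * sqn (fun y => (f y).re) +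
        ENNReal.ofReal (2 * (C₁ ^ 2 + C₂ ^ 2)) * sqn (fun y => (f y).im) :=
        add_le_add hre.2 him.2
    _ = ENNReal.ofReal (2 * (C₁ ^ 2 + C₂ ^ 2)) * ∫⁻ x, ‖f x‖ₑ ^ 2 := by
        rw [← mul_add]
        congr 1
        have : ∫⁻ x, ‖f x‖ₑ ^ 2 = ∫⁻ x, (‖(f x).re‖ₑ ^ 2 + ‖(f x).im‖ₑ ^ 2) :=
          lintegral_congr fun x => final_normsq _
        rw [this]
        exact (lintegral_add_left (hmre.enorm.pow_const 2) _).symm
    _ = ENNReal.ofReal (2 * (C₁ ^ 2 + C₂ ^ 2) * ∫ x, ‖f x‖ ^ 2) := by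
        rw [final_lintegral_sq, ← ENNReal.ofReal_mul (by positivity)]

/-- Stein's inequality, weak and strong form, from the uniform bound. -/
theorem stein_of_unif6 {C₁ : ℝ} (h1 : UnifFrom 6 C₁) : ∃ C : ℝ, 0 < C ∧
    ∀ v : Plane → Plane, (∀ x, ‖v x‖ = 1) → LipschitzWith 1 v →
      ∀ a : ℝ, 0 < a → a ≤ 1 → StrongType v a C ∧ WeakType v a C := by
  refine (strong_of_unif h1).elim fun C hC => ⟨C, hC.1, fun v hvu hvl a ha ha1 => ?_⟩
  have h := hC.2 v hvl hvu a ha ha1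
  refine ⟨?_, weakType_iff.mpr (weak_of_strong hvl hvu ha hC.1.le h)⟩
  rintro F ⟨f, rfl⟩
  have h2 := h f
  rw [l2sq_schwartz, ← ENNReal.ofReal_mul hC.1.le]
  exact h2

/-! ## The first scales -/

lemma sqn_add_le' {F G : Plane → ℝ} (hF : Measurable F) :
    sqn (F + G) ≤ 2 * sqn F + 2 * sqn G := by
  unfold sqn
  rw [← lintegral_const_mul' _ _ (by simp), ← lintegral_const_mul' _ _ (by simp),
    ← lintegral_add_left (by fun_prop)]
  exact lintegral_mono fun x => final_add_sq _ _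

lemma sqn_zero' : sqn (0 : Plane → ℝ) = 0 := by
  unfold sqn
  simp

lemma cc_sum_Tp {v : Plane → Plane} (hvl : LipschitzWith 1 v) (hvu : ∀ x, ‖v x‖ = 1)
    {F : Plane → ℝ} (hF : CC F) (l0 : ℕ) (s : Finset ℕ) :
    CC (∑ l ∈ s, Tp v (sc (l0 + l)) F) := by
  classical
  induction s using Finset.induction_on with
  | empty => simpa using CC.zero
  | insert a s ha ih =>
    rw [Finset.sum_insert ha]
    exact (cc_Tp hvl hvu (sc_pos _) hF).add ih

/-- a bounded number of scales is harmless -/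
lemma sqn_few {v : Plane → Plane} (hvl : LipschitzWith 1 v) (hvu : ∀ x, ‖v x‖ = 1)
    {F : Plane → ℝ} (hF : CC F) {l0 : ℕ} (hl0 : 6 ≤ l0) (k : ℕ) :
    sqn (∑ l ∈ Finset.range k, Tp v (sc (l0 + l)) F) ≤
      ENNReal.ofReal ((16 * 2 ^ k) ^ 2) * sqn F := by
  induction k with
  | zero => simp [sqn_zero']
  | succ k ih =>
    rw [Finset.sum_range_succ]
    refine (sqn_add_le' (cc_sum_Tp hvl hvu hF l0 _).1.measurable).trans ?_
    have h2 := sqn_Tp_le hvl hvu (sc_pos (l0 + k)) (sc_le (by omega)) hF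
    calc 2 * sqn (∑ l ∈ Finset.range k, Tp v (sc (l0 + l)) F) + 2 * sqn (Tp v (sc (l0 + k)) F)
        ≤ 2 * (ENNReal.ofReal ((16 * 2 ^ k) ^ 2) * sqn F) +
            2 * (ENNReal.ofReal (16 ^ 2) * sqn F) := by gcongr
      _ = ENNReal.ofReal (2 * (16 * 2 ^ k) ^ 2 + 2 * 16 ^ 2) * sqn F := by
          rw [ENNReal.ofReal_add (by positivity) (by positivity),
            ENNReal.ofReal_mul zero_le_two, ENNReal.ofReal_mul (p := 2) zero_le_two]
          have h5 : (2 : ℝ≥0∞) = ENNReal.ofReal 2 := by simp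
          rw [← h5]
          ring
      _ ≤ ENNReal.ofReal ((16 * 2 ^ (k + 1)) ^ 2) * sqn F := by
          gcongr
          have h6 : (1 : ℝ) ≤ 2 ^ k := one_le_pow₀ (by norm_num)
          rw [pow_succ 2 k]
          nlinarith [mul_self_nonneg ((2:ℝ) ^ k - 1)]

theorem unif_of_unifFrom {m : ℕ} {C : ℝ} (h : UnifFrom m C) : ∃ C' : ℝ, UnifFrom 6 C' := by
  refine ⟨2 * (16 * 2 ^ m + |C|), ?_⟩
  intro v hvl hvu l0 n hl0 F hF
  have key : ∀ k : ℕ, ∀ n : ℕ, ∀ l0 : ℕ, 6 ≤ l0 → k ≤ n → (m ≤ l0 + k ∨ k = n) → k ≤ m →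
      sqn (∑ l ∈ Finset.range n, Tp v (sc (l0 + l)) F) ≤
        ENNReal.ofReal ((2 * (16 * 2 ^ m + |C|)) ^ 2) * sqn F := by
    intro k n l0 hl0 hkn hk hkm
    have e1 : ∑ l ∈ Finset.range n, Tp v (sc (l0 + l)) F =
        ∑ l ∈ Finset.range k, Tp v (sc (l0 + l)) F +
          ∑ l ∈ Finset.range (n - k), Tp v (sc (l0 + k + l)) F := by
      have h1 := Finset.sum_range_add (fun l => Tp v (sc (l0 + l)) F) k (n - k)
      rw [Nat.add_sub_cancel' hkn] at h1
      rw [h1]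
      congr 1
      apply Finset.sum_congr rfl
      intro l _
      rw [add_assoc]
    rw [e1]
    refine (sqn_add_le' (cc_sum_Tp hvl hvu hF l0 _).1.measurable).trans ?_
    have h2 := sqn_few hvl hvu hF hl0 k
    have h3 : sqn (∑ l ∈ Finset.range (n - k), Tp v (sc (l0 + k + l)) F) ≤
        ENNReal.ofReal (C ^ 2) * sqn F := by
      rcases hk with hk | hk
      · exact h v hvl hvu (l0 + k) (n - k) hk F hF
      · rw [hk, Nat.sub_self, Finset.sum_range_zero, sqn_zero']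
        exact bot_le
    calc 2 * sqn (∑ l ∈ Finset.range k, Tp v (sc (l0 + l)) F) +
          2 * sqn (∑ l ∈ Finset.range (n - k), Tp v (sc (l0 + k + l)) F)
        ≤ 2 * (ENNReal.ofReal ((16 * 2 ^ k) ^ 2) * sqn F) +
            2 * (ENNReal.ofReal (C ^ 2) * sqn F) := by gcongr
      _ = ENNReal.ofReal (2 * (16 * 2 ^ k) ^ 2 + 2 * C ^ 2) * sqn F := by
          rw [ENNReal.ofReal_add (by positivity) (by positivity),
            ENNReal.ofReal_mul zero_le_two, ENNReal.ofReal_mul (p := 2) zero_le_two]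
          have h5 : (2 : ℝ≥0∞) = ENNReal.ofReal 2 := by simp
          rw [← h5]
          ring
      _ ≤ ENNReal.ofReal ((2 * (16 * 2 ^ m + |C|)) ^ 2) * sqn F := by
          gcongr
          have h6 : (2 : ℝ) ^ k ≤ 2 ^ m := pow_le_pow_right₀ (by norm_num) hkm
          have h7 : (0 : ℝ) < 2 ^ k := by positivity
          have h8 : 0 ≤ |C| := abs_nonneg C
          have h9 : (2:ℝ) ^ k * 2 ^ k ≤ 2 ^ m * 2 ^ m := by gcongr
          rw [← sq_abs C]
          nlinarith [mul_nonneg (by positivity : (0:ℝ) ≤ 2 ^ m) h8, mul_self_nonneg (|C|)]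
  by_cases hc : m ≤ l0
  · exact key 0 n l0 hl0 (Nat.zero_le _) (Or.inl (by omega)) (Nat.zero_le _)
  · by_cases hn : n ≤ m - l0
    · exact key n n l0 hl0 le_rfl (Or.inr rfl) (by omega)
    · exact key (m - l0) n l0 hl0 (by omega) (Or.inl (by omega)) (by omega)

/-- **Block A0.** Stein's inequality, weak and strong form, for all scales `a ∈ (0,1]`, from the
uniform bound of the finite sums of pieces of length at most `2 ^ (-m)`. -/
theorem stein_of_unif {m : ℕ} {C₁ : ℝ} (h1 : UnifFrom m C₁) : ∃ C : ℝ, 0 < C ∧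
    ∀ v : Plane → Plane, (∀ x, ‖v x‖ = 1) → LipschitzWith 1 v →
      ∀ a : ℝ, 0 < a → a ≤ 1 → StrongType v a C ∧ WeakType v a C := by
  obtain ⟨C', h'⟩ := unif_of_unifFrom h1
  exact stein_of_unif6 h'

end Vale.Agent.P112
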